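import Vale.Agent.P011.D4Z.Defs
import Vale.Agent.P011.D4Z.H493.Ev
import Vale.Agent.P011.D4X.H657.Jq
import Vale.Agent.P011.D4X.H69.Z5
import Vale.Agent.P011.D4X.H691.Std
import Vale.Agent.P011.D4X.H862.BaseX

/-!
Block D4Z: the moves of the four dimensional blocks are products of two reflections.
-/

set_option linter.unusedSimpArgs false
set_option linter.unusedSectionVars false

open Topology

namespace Vale.Agent.P011.D4Z

open Vale.Agent.P011.MPQ Vale.Agent.P011.D4 Vale.Agent.P011.D4.Oct Vale.Agent.P011.D4X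
open Vale.Agent.P011.E6
open scoped ComplexConjugate

namespace H553

section quat

variable {k : Type} [Field k] [Algebra k ℂ] {a b : kˣ} {al : ℂ}

theorem cjq_mk4 (hc : conj al = -al) (u u' v v' : ℂ) :
    cjq (mk4 (up ℂ a) (up ℂ b) al u u' v v') =
      mk4 (up ℂ a) (up ℂ b) al (conj u') (conj u) (conj v') (conj v) := by
  ext
  · simp only [cjq, D4X.mk4, map_div₀, map_add, map_ofNat]
    ring
  · simp only [cjq, D4X.mk4, map_div₀, map_sub, map_mul, map_ofNat, hc]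
    rw [mul_neg, div_neg, ← neg_div, neg_sub]
  · simp only [cjq, D4X.mk4, map_div₀, map_add, map_ofNat]
    ring
  · simp only [cjq, D4X.mk4, map_div₀, map_sub, map_mul, map_ofNat, hc]
    rw [mul_neg, div_neg, ← neg_div, neg_sub]

theorem RQ_mk4 (hal : al * al = ((up ℂ a : ℂˣ) : ℂ)) (hc : conj al = -al) {t u u' v v' : ℂ}
    (ht : conj t = t) (h1 : conj u = u') (h2 : t * conj v' = v) :
    RQ a b al t (mk4 (up ℂ a) (up ℂ b) al u u' v v') := by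
  have h3 : conj u' = u := by rw [← h1, Complex.conj_conj]
  have h4 : conj v = t * v' := by rw [← h2, map_mul, ht, Complex.conj_conj]
  rw [RQ, mq_eq, cjq_mk4 hc, mk4_mul hal, mk4_mul hal, h1, h3, h4, ← h2]
  congr 1 <;> ring

theorem coordF (hal : al * al = ((up ℂ a : ℂˣ) : ℂ)) (hc : conj al = -al) {r0 r1 s : ℂ}
    (h0 : r0 ≠ 0) (h1 : r1 ≠ 0) (hs0 : s ≠ 0) (hs : s ^ 2 = r0 ^ 2 * r1) {u u' v v' : ℂ}
    (h : mq a b al r0 * cjq (mk4 (up ℂ a) (up ℂ b) al u u' v v') * mq a b al (r0 * r1) =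
      s • mk4 (up ℂ a) (up ℂ b) al u u' v v') :
    conj u = s * u' ∧ conj u' = u / s ∧ conj v = s * v' / (r0 * r1) ∧ conj v' = s * v / r0 := by
  rw [cjq_mk4 hc, mq_eq, mq_eq, mk4_mul hal, mk4_mul hal, smul_mk4] at h
  obtain ⟨e1, e2, e3, e4⟩ := mk4_inj hal h
  simp only [zero_mul, mul_zero, add_zero, zero_add, one_mul, mul_one] at e1 e2 e3 e4
  refine ⟨e2, ?_, ?_, ?_⟩
  · rw [eq_div_iff hs0]
    apply mul_left_cancel₀ hs0
    linear_combination e1 + conj u' * hs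
  · rw [eq_div_iff (mul_ne_zero h0 h1)]
    exact e4
  · rw [eq_div_iff h0]
    linear_combination e3

theorem coordS (hal : al * al = ((up ℂ a : ℂˣ) : ℂ)) (hc : conj al = -al) {r0 r1 s : ℂ}
    (h0 : r0 ≠ 0) (h1 : r1 ≠ 0) {u u' v v' : ℂ}
    (h : cjq (mk4 (up ℂ a) (up ℂ b) al u u' v v') *
      (mq a b al r0 * star (mq a b al (r0 * r1))) = s • mk4 (up ℂ a) (up ℂ b) al u u' v v') :
    conj u = s * u' / (r0 * r1) ∧ conj u' = s * u / r0 ∧ conj v = s * v' / r0 ∧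
      conj v' = s * v / (r0 * r1) := by
  rw [cjq_mk4 hc, mq_eq, mq_eq, star_mk4, mk4_mul hal, mk4_mul hal, smul_mk4] at h
  obtain ⟨e1, e2, e3, e4⟩ := mk4_inj hal h
  simp only [zero_mul, mul_zero, add_zero, zero_add, one_mul, mul_one, neg_zero] at e1 e2 e3 e4
  refine ⟨?_, ?_, ?_, ?_⟩
  · rw [eq_div_iff (mul_ne_zero h0 h1)]
    exact e2
  · rw [eq_div_iff h0]
    exact e1
  · rw [eq_div_iff h0]
    exact e4
  · rw [eq_div_iff (mul_ne_zero h0 h1)]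
    exact e3

theorem blockF (hal : al * al = ((up ℂ a : ℂˣ) : ℂ)) (hc : conj al = -al)
    (hB : conj ((up ℂ b : ℂˣ) : ℂ) = ((up ℂ b : ℂˣ) : ℂ)) {r0 r1 r2 s : ℂ}
    (hr : r0 * r1 * r2 = 1) (c0 : conj r0 = r0) (c2 : conj r2 = r2)
    (hs : s ^ 2 = r0 ^ 2 * r1) {e e' : Qt (up ℂ a) (up ℂ b)}
    (he : mq a b al r0 * cjq e * mq a b al (r0 * r1) = s • e)
    (he' : mq a b al r0 * cjq e' * mq a b al (r0 * r1) = s • e')
    {N : ℂ} (hN : nrd e = N) (hN' : nrd e' = N) (hN0 : N ≠ 0) :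
    RQ a b al r0 (N⁻¹ • (e' * star e)) ∧ RQ a b al r2 (N⁻¹ • (star e' * e)) ∧
      nrd (N⁻¹ • (e' * star e)) = 1 ∧ nrd (N⁻¹ • (star e' * e)) = 1 := by
  have h0 : r0 ≠ 0 := by
    rintro rfl
    simp at hr
  have h1 : r1 ≠ 0 := by
    rintro rfl
    simp at hr
  have hs0 : s ≠ 0 := by
    rintro rfl
    rw [zero_pow two_ne_zero] at hs
    exact mul_ne_zero (pow_ne_zero 2 h0) h1 hs.symm
  have hr2 : r2 = (r0 * r1)⁻¹ := eq_inv_of_mul_eq_one_right hr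
  have h3 : N⁻¹ ^ 2 * (N * N) = 1 := by field_simp
  obtain ⟨u, u', v, v', hu⟩ : ∃ u u' v v', e = mk4 (up ℂ a) (up ℂ b) al u u' v v' :=
    ⟨_, _, _, _, mk4_surj hal e⟩
  obtain ⟨w, w', z, z', hw⟩ : ∃ u u' v v', e' = mk4 (up ℂ a) (up ℂ b) al u u' v v' :=
    ⟨_, _, _, _, mk4_surj hal e'⟩
  refine ⟨?_, ?_, by rw [nrd_smul_q, nrd_mul_q, nrd_star_q, hN, hN', h3],
    by rw [nrd_smul_q, nrd_mul_q, nrd_star_q, hN, hN', h3]⟩
  all_goals
    rw [hu] at he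
    rw [hw] at he'
    obtain ⟨a1, a2, a3, a4⟩ := coordF hal hc h0 h1 hs0 hs he
    obtain ⟨b1, b2, b3, b4⟩ := coordF hal hc h0 h1 hs0 hs he'
    have hNc : conj N = N := by
      rw [← hN, hu, nrd_mk4 hal]
      simp only [map_sub, map_mul, a1, a2, a3, a4, hB]
      field_simp
      linear_combination (-((up ℂ b : ℂˣ) : ℂ) * v * v') * hs
    rw [hu, hw, star_mk4, mk4_mul hal, smul_mk4]
  · apply RQ_mk4 hal hc c0
    · simp only [map_add, map_mul, map_neg, map_inv₀, hNc, a2, a4, b1, b3, hB]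
      field_simp
      linear_combination (-((up ℂ b : ℂˣ) : ℂ) * v * z') * hs
    · simp only [map_add, map_mul, map_neg, map_inv₀, hNc, a2, a4, b2, b4]
      field_simp
  · apply RQ_mk4 hal hc c2
    · simp only [map_add, map_mul, map_neg, map_inv₀, hNc, a1, a4, b2, b3, hB]
      field_simp
      linear_combination (-((up ℂ b : ℂˣ) : ℂ) * v * z') * hs
    · simp only [map_add, map_mul, map_neg, map_inv₀, hNc, a1, a4, b1, b4, hr2]
      field_simp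
      linear_combination (w' * v - z * u') * hs

theorem blockS (hal : al * al = ((up ℂ a : ℂˣ) : ℂ)) (hc : conj al = -al)
    (hB : conj ((up ℂ b : ℂˣ) : ℂ) = ((up ℂ b : ℂˣ) : ℂ)) {r0 r1 s : ℂ}
    (h0 : r0 ≠ 0) (h1 : r1 ≠ 0) (c1 : conj r1 = r1)
    (hs : s ^ 2 = r0 ^ 2 * r1) {e e' : Qt (up ℂ a) (up ℂ b)}
    (he : cjq e * (mq a b al r0 * star (mq a b al (r0 * r1))) = s • e)
    (he' : cjq e' * (mq a b al r0 * star (mq a b al (r0 * r1))) = s • e')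
    {N : ℂ} (hN : nrd e = N) (hN' : nrd e' = N) (hN0 : N ≠ 0) :
    cjq (N⁻¹ • (e' * star e)) = N⁻¹ • (e' * star e) ∧ RQ a b al r1 (N⁻¹ • (star e' * e)) ∧
      nrd (N⁻¹ • (e' * star e)) = 1 ∧ nrd (N⁻¹ • (star e' * e)) = 1 := by
  have hs0 : s ≠ 0 := by
    rintro rfl
    rw [zero_pow two_ne_zero] at hs
    exact mul_ne_zero (pow_ne_zero 2 h0) h1 hs.symm
  have h3 : N⁻¹ ^ 2 * (N * N) = 1 := by field_simp
  obtain ⟨u, u', v, v', hu⟩ : ∃ u u' v v', e = mk4 (up ℂ a) (up ℂ b) al u u' v v' :=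
    ⟨_, _, _, _, mk4_surj hal e⟩
  obtain ⟨w, w', z, z', hw⟩ : ∃ u u' v v', e' = mk4 (up ℂ a) (up ℂ b) al u u' v v' :=
    ⟨_, _, _, _, mk4_surj hal e'⟩
  refine ⟨?_, ?_, by rw [nrd_smul_q, nrd_mul_q, nrd_star_q, hN, hN', h3],
    by rw [nrd_smul_q, nrd_mul_q, nrd_star_q, hN, hN', h3]⟩
  all_goals
    rw [hu] at he
    rw [hw] at he'
    obtain ⟨a1, a2, a3, a4⟩ := coordS hal hc h0 h1 he
    obtain ⟨b1, b2, b3, b4⟩ := coordS hal hc h0 h1 he'
    have hNc : conj N = N := by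
      rw [← hN, hu, nrd_mk4 hal]
      simp only [map_sub, map_mul, a1, a2, a3, a4, hB]
      field_simp
      linear_combination (u * u' - ((up ℂ b : ℂˣ) : ℂ) * v * v') * hs
    rw [hu, hw, star_mk4, mk4_mul hal, smul_mk4]
  · rw [cjq_mk4 hc]
    congr 1
    · simp only [map_add, map_mul, map_neg, map_inv₀, hNc, a1, a2, a3, a4, b1, b2, b3, b4, hB]
      field_simp
      linear_combination (w * u' - ((up ℂ b : ℂˣ) : ℂ) * z * v') * hs
    · simp only [map_add, map_mul, map_neg, map_inv₀, hNc, a1, a2, a3, a4, b1, b2, b3, b4, hB]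
      field_simp
      linear_combination (w' * u - ((up ℂ b : ℂˣ) : ℂ) * z' * v) * hs
    · simp only [map_add, map_mul, map_neg, map_inv₀, hNc, a1, a2, a3, a4, b1, b2, b3, b4, hB]
      field_simp
      linear_combination (z * u - w * v) * hs
    · simp only [map_add, map_mul, map_neg, map_inv₀, hNc, a1, a2, a3, a4, b1, b2, b3, b4, hB]
      field_simp
      linear_combination (z' * u' - w' * v') * hs
  · apply RQ_mk4 hal hc c1
    · simp only [map_add, map_mul, map_neg, map_inv₀, hNc, a1, a2, a3, a4, b1, b2, b3, b4, hB]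
      field_simp
      linear_combination (w * u' - ((up ℂ b : ℂˣ) : ℂ) * z' * v) * hs
    · simp only [map_add, map_mul, map_neg, map_inv₀, hNc, a1, a2, a3, a4, b1, b2, b3, b4, hB]
      field_simp
      linear_combination (w' * v - z * u') * hs

end quat

section refl

variable {k : Type} [Field k] [Algebra k ℂ] {a b c : kˣ}

theorem refl_fst {e0 : Qt (up ℂ a) (up ℂ b)} {N : ℂ} (hN : nrd e0 = N) (hN0 : N ≠ 0)
    (x : OctL ℂ a b c) :
    refl (⟨e0, 0⟩ : OctL ℂ a b c) x = ⟨(-N⁻¹) • (e0 * star x.fst * e0), x.snd⟩ := by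
  have hn : Oct.norm (⟨e0, 0⟩ : OctL ℂ a b c) = N := by
    change nrd e0 - ((up ℂ c : ℂˣ) : ℂ) * nrd (0 : Qt (up ℂ a) (up ℂ b)) = N
    rw [hN]
    simp [nrd]
  rw [refl, hn]
  subst hN
  have hN1 : nrd e0 = e0.re ^ 2 - ((up ℂ a : ℂˣ) : ℂ) * e0.imI ^ 2 -
    ((up ℂ b : ℂˣ) : ℂ) * e0.imJ ^ 2 + ((up ℂ a : ℂˣ) : ℂ) * ((up ℂ b : ℂˣ) : ℂ) * e0.imK ^ 2 :=
    rfl
  obtain ⟨N, hN2⟩ : ∃ N, N = nrd e0 := ⟨_, rfl⟩
  rw [← hN2] at hN0 hN1 ⊢
  apply ext8
  · simp only [bil_eq, fst_sub, snd_sub, fst_smul, snd_smul, QuaternionAlgebra.re_sub,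
      QuaternionAlgebra.re_smul, smul_eq_mul, QuaternionAlgebra.re_mul, QuaternionAlgebra.imI_mul,
      QuaternionAlgebra.imJ_mul, QuaternionAlgebra.imK_mul, QuaternionAlgebra.re_star,
      QuaternionAlgebra.imI_star, QuaternionAlgebra.imJ_star, QuaternionAlgebra.imK_star,
      QuaternionAlgebra.re_zero, QuaternionAlgebra.imI_zero, QuaternionAlgebra.imJ_zero,
      QuaternionAlgebra.imK_zero]
    field_simp
    linear_combination x.fst.re * hN1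
  · simp only [bil_eq, fst_sub, snd_sub, fst_smul, snd_smul, QuaternionAlgebra.imI_sub,
      QuaternionAlgebra.imI_smul, smul_eq_mul, QuaternionAlgebra.re_mul, QuaternionAlgebra.imI_mul,
      QuaternionAlgebra.imJ_mul, QuaternionAlgebra.imK_mul, QuaternionAlgebra.re_star,
      QuaternionAlgebra.imI_star, QuaternionAlgebra.imJ_star, QuaternionAlgebra.imK_star,
      QuaternionAlgebra.re_zero, QuaternionAlgebra.imI_zero, QuaternionAlgebra.imJ_zero,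
      QuaternionAlgebra.imK_zero]
    field_simp
    linear_combination x.fst.imI * hN1
  · simp only [bil_eq, fst_sub, snd_sub, fst_smul, snd_smul, QuaternionAlgebra.imJ_sub,
      QuaternionAlgebra.imJ_smul, smul_eq_mul, QuaternionAlgebra.re_mul, QuaternionAlgebra.imI_mul,
      QuaternionAlgebra.imJ_mul, QuaternionAlgebra.imK_mul, QuaternionAlgebra.re_star,
      QuaternionAlgebra.imI_star, QuaternionAlgebra.imJ_star, QuaternionAlgebra.imK_star,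
      QuaternionAlgebra.re_zero, QuaternionAlgebra.imI_zero, QuaternionAlgebra.imJ_zero,
      QuaternionAlgebra.imK_zero]
    field_simp
    linear_combination x.fst.imJ * hN1
  · simp only [bil_eq, fst_sub, snd_sub, fst_smul, snd_smul, QuaternionAlgebra.imK_sub,
      QuaternionAlgebra.imK_smul, smul_eq_mul, QuaternionAlgebra.re_mul, QuaternionAlgebra.imI_mul,
      QuaternionAlgebra.imJ_mul, QuaternionAlgebra.imK_mul, QuaternionAlgebra.re_star,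
      QuaternionAlgebra.imI_star, QuaternionAlgebra.imJ_star, QuaternionAlgebra.imK_star,
      QuaternionAlgebra.re_zero, QuaternionAlgebra.imI_zero, QuaternionAlgebra.imJ_zero,
      QuaternionAlgebra.imK_zero]
    field_simp
    linear_combination x.fst.imK * hN1
  · simp only [snd_sub, snd_smul, QuaternionAlgebra.re_sub, QuaternionAlgebra.re_smul,
      QuaternionAlgebra.re_zero, smul_zero, sub_zero]
  · simp only [snd_sub, snd_smul, QuaternionAlgebra.imI_sub, QuaternionAlgebra.imI_smul,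
      QuaternionAlgebra.imI_zero, smul_zero, sub_zero]
  · simp only [snd_sub, snd_smul, QuaternionAlgebra.imJ_sub, QuaternionAlgebra.imJ_smul,
      QuaternionAlgebra.imJ_zero, smul_zero, sub_zero]
  · simp only [snd_sub, snd_smul, QuaternionAlgebra.imK_sub, QuaternionAlgebra.imK_smul,
      QuaternionAlgebra.imK_zero, smul_zero, sub_zero]

theorem refl_snd {e0 : Qt (up ℂ a) (up ℂ b)} {N : ℂ} (hN : nrd e0 = N) (hN0 : N ≠ 0)
    (x : OctL ℂ a b c) :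
    refl (⟨0, e0⟩ : OctL ℂ a b c) x = ⟨x.fst, (-N⁻¹) • (e0 * star x.snd * e0)⟩ := by
  have hc0 : ((up ℂ c : ℂˣ) : ℂ) ≠ 0 := (up ℂ c).ne_zero
  have hn : Oct.norm (⟨0, e0⟩ : OctL ℂ a b c) = -((up ℂ c : ℂˣ) : ℂ) * N := by
    change nrd (0 : Qt (up ℂ a) (up ℂ b)) - ((up ℂ c : ℂˣ) : ℂ) * nrd e0 = _
    rw [hN]
    simp [nrd]
  rw [refl, hn]
  subst hN
  have hN1 : nrd e0 = e0.re ^ 2 - ((up ℂ a : ℂˣ) : ℂ) * e0.imI ^ 2 -
    ((up ℂ b : ℂˣ) : ℂ) * e0.imJ ^ 2 + ((up ℂ a : ℂˣ) : ℂ) * ((up ℂ b : ℂˣ) : ℂ) * e0.imK ^ 2 :=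
    rfl
  obtain ⟨N, hN2⟩ : ∃ N, N = nrd e0 := ⟨_, rfl⟩
  rw [← hN2] at hN0 hN1 ⊢
  apply ext8
  · simp only [fst_sub, fst_smul, QuaternionAlgebra.re_sub, QuaternionAlgebra.re_smul,
      QuaternionAlgebra.re_zero, smul_zero, sub_zero]
  · simp only [fst_sub, fst_smul, QuaternionAlgebra.imI_sub, QuaternionAlgebra.imI_smul,
      QuaternionAlgebra.imI_zero, smul_zero, sub_zero]
  · simp only [fst_sub, fst_smul, QuaternionAlgebra.imJ_sub, QuaternionAlgebra.imJ_smul,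
      QuaternionAlgebra.imJ_zero, smul_zero, sub_zero]
  · simp only [fst_sub, fst_smul, QuaternionAlgebra.imK_sub, QuaternionAlgebra.imK_smul,
      QuaternionAlgebra.imK_zero, smul_zero, sub_zero]
  · simp only [bil_eq, fst_sub, snd_sub, fst_smul, snd_smul, QuaternionAlgebra.re_sub,
      QuaternionAlgebra.re_smul, smul_eq_mul, QuaternionAlgebra.re_mul, QuaternionAlgebra.imI_mul,
      QuaternionAlgebra.imJ_mul, QuaternionAlgebra.imK_mul, QuaternionAlgebra.re_star,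
      QuaternionAlgebra.imI_star, QuaternionAlgebra.imJ_star, QuaternionAlgebra.imK_star,
      QuaternionAlgebra.re_zero, QuaternionAlgebra.imI_zero, QuaternionAlgebra.imJ_zero,
      QuaternionAlgebra.imK_zero]
    field_simp
    linear_combination (x.snd.re * ((up ℂ c : ℂˣ) : ℂ)) * hN1
  · simp only [bil_eq, fst_sub, snd_sub, fst_smul, snd_smul, QuaternionAlgebra.imI_sub,
      QuaternionAlgebra.imI_smul, smul_eq_mul, QuaternionAlgebra.re_mul, QuaternionAlgebra.imI_mul,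
      QuaternionAlgebra.imJ_mul, QuaternionAlgebra.imK_mul, QuaternionAlgebra.re_star,
      QuaternionAlgebra.imI_star, QuaternionAlgebra.imJ_star, QuaternionAlgebra.imK_star,
      QuaternionAlgebra.re_zero, QuaternionAlgebra.imI_zero, QuaternionAlgebra.imJ_zero,
      QuaternionAlgebra.imK_zero]
    field_simp
    linear_combination (x.snd.imI * ((up ℂ c : ℂˣ) : ℂ)) * hN1
  · simp only [bil_eq, fst_sub, snd_sub, fst_smul, snd_smul, QuaternionAlgebra.imJ_sub,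
      QuaternionAlgebra.imJ_smul, smul_eq_mul, QuaternionAlgebra.re_mul, QuaternionAlgebra.imI_mul,
      QuaternionAlgebra.imJ_mul, QuaternionAlgebra.imK_mul, QuaternionAlgebra.re_star,
      QuaternionAlgebra.imI_star, QuaternionAlgebra.imJ_star, QuaternionAlgebra.imK_star,
      QuaternionAlgebra.re_zero, QuaternionAlgebra.imI_zero, QuaternionAlgebra.imJ_zero,
      QuaternionAlgebra.imK_zero]
    field_simp
    linear_combination (x.snd.imJ * ((up ℂ c : ℂˣ) : ℂ)) * hN1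
  · simp only [bil_eq, fst_sub, snd_sub, fst_smul, snd_smul, QuaternionAlgebra.imK_sub,
      QuaternionAlgebra.imK_smul, smul_eq_mul, QuaternionAlgebra.re_mul, QuaternionAlgebra.imI_mul,
      QuaternionAlgebra.imJ_mul, QuaternionAlgebra.imK_mul, QuaternionAlgebra.re_star,
      QuaternionAlgebra.imI_star, QuaternionAlgebra.imJ_star, QuaternionAlgebra.imK_star,
      QuaternionAlgebra.re_zero, QuaternionAlgebra.imI_zero, QuaternionAlgebra.imJ_zero,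
      QuaternionAlgebra.imK_zero]
    field_simp
    linear_combination (x.snd.imK * ((up ℂ c : ℂˣ) : ℂ)) * hN1

theorem two_refl (N : ℂ) (e0 e1 x : Qt (up ℂ a) (up ℂ b)) :
    (-N⁻¹) • (e1 * star ((-N⁻¹) • (e0 * star x * e0)) * e1) =
      N⁻¹ • (e1 * star e0) * x * star (N⁻¹ • (star e1 * e0)) := by
  simp only [QuaternionAlgebra.star_smul, star_neg, star_mul, star_star, smul_mul_assoc, mul_smul_comm, mul_assoc,
    smul_smul, neg_smul, smul_neg, neg_neg, neg_mul, mul_neg]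

theorem refl2_fst {e0 e1 : Qt (up ℂ a) (up ℂ b)} {N : ℂ} (hN : nrd e0 = N) (hN' : nrd e1 = N)
    (hN0 : N ≠ 0) (x : OctL ℂ a b c) :
    refl (⟨e1, 0⟩ : OctL ℂ a b c) (refl ⟨e0, 0⟩ x) =
      ⟨N⁻¹ • (e1 * star e0) * x.fst * star (N⁻¹ • (star e1 * e0)), x.snd⟩ := by
  rw [refl_fst hN hN0, refl_fst hN' hN0, two_refl]

theorem refl2_snd {e0 e1 : Qt (up ℂ a) (up ℂ b)} {N : ℂ} (hN : nrd e0 = N) (hN' : nrd e1 = N)
    (hN0 : N ≠ 0) (x : OctL ℂ a b c) :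
    refl (⟨0, e1⟩ : OctL ℂ a b c) (refl ⟨0, e0⟩ x) =
      ⟨x.fst, N⁻¹ • (e1 * star e0) * x.snd * star (N⁻¹ • (star e1 * e0))⟩ := by
  rw [refl_snd hN hN0, refl_snd hN' hN0, two_refl]

end refl

section abs

variable {k : Type} [Field k] [Algebra k ℂ] {a b c : kˣ}

/-- The complex conjugation as an automorphism over `k`. -/
noncomputable def sc (hk : ∀ t : k, conj (algebraMap k ℂ t) = algebraMap k ℂ t) : ℂ ≃ₐ[k] ℂ :=
  AlgEquiv.ofRingEquiv (f := (starRingAut : ℂ ≃+* ℂ)) hk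

theorem refl_trip {b' c' : kˣ} {j l : Oct a b c} (h : Trip a b' c' gi j l)
    (e x : OctL ℂ a b' c') :
    refl (tripO ℂ h e) (tripO ℂ h x) = tripO ℂ h (refl e x) := by
  rw [refl, refl, hom_norm (tripO_mul h), hom_bil (tripO_mul h), map_sub, map_smul]

theorem RQ_one {b' : kˣ} {al t : ℂ} : RQ a b' al t (1 : Qt (up ℂ a) (up ℂ b')) := by
  have h : cjq (1 : Qt (up ℂ a) (up ℂ b')) = 1 := by
    ext <;> simp [cjq]
  rw [RQ, h, mul_one, one_mul]

theorem nrd_one' {b' : kˣ} : nrd (1 : Qt (up ℂ a) (up ℂ b')) = 1 := by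
  simp [nrd]

/-- The data for the two kinds of moves, for one change of coordinates. -/
structure Mv (al r0 r1 r2 : ℂ) (P : (OctL ℂ a b c → OctL ℂ a b c) → Prop) : Prop where
  px : ∀ {b' c' : kˣ} {j l : Oct a b c} (h : Trip a b' c' gi j l)
    {X1 X2 X3 : Qt (up ℂ a) (up ℂ b')}, nrd X1 = 1 → nrd X2 = 1 → nrd X3 = 1 →
    RQ a b' al r0 X1 → RQ a b' al r1 X2 → RQ a b' al r2 X3 →
    ∀ f, (∀ y : OctL ℂ a b' c', f (tripO ℂ h y) =
      tripO ℂ h ⟨X1 * y.fst * star X3, y.snd * star X2⟩) → P f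
  p0 : ∀ {b' c' : kˣ} {j l : Oct a b c} (h : Trip a b' c' gi j l)
    {X0 : Qt (up ℂ a) (up ℂ b')}, nrd X0 = 1 → cjq X0 = X0 →
    ∀ f, (∀ y : OctL ℂ a b' c', f (tripO ℂ h y) = tripO ℂ h ⟨y.fst, X0 * y.snd⟩) → P f
  mul : ∀ f g, P f → P g → P (fun y => f (g y))

variable {al r0 r1 r2 s : ℂ} {P : (OctL ℂ a b c → OctL ℂ a b c) → Prop}
  (hk : ∀ t : k, conj (algebraMap k ℂ t) = algebraMap k ℂ t)
  (hal : al * al = ((up ℂ a : ℂˣ) : ℂ)) (hc : conj al = -al)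
  (hr : r0 * r1 * r2 = 1) (c0 : conj r0 = r0) (c1 : conj r1 = r1) (c2 : conj r2 = r2)
  (hs : s ^ 2 = r0 ^ 2 * r1) (hP : Mv al r0 r1 r2 P)

include hk hal hc hr c0 c1 c2 hs hP

theorem blk_fst {b' c' : kˣ} {j l : Oct a b c} (h : Trip a b' c' gi j l)
    {e0 e1 : Qt (up ℂ a) (up ℂ b')}
    (he : Jq (sc hk) al r0 r1 (tripO ℂ h ⟨e0, 0⟩) = s • tripO ℂ h ⟨e0, 0⟩)
    (he' : Jq (sc hk) al r0 r1 (tripO ℂ h ⟨e1, 0⟩) = s • tripO ℂ h ⟨e1, 0⟩)
    (hN : Oct.norm (tripO ℂ h ⟨e1, 0⟩) = Oct.norm (tripO ℂ h ⟨e0, 0⟩))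
    (hN0 : Oct.norm (tripO ℂ h ⟨e0, 0⟩) ≠ 0) :
    P (fun y => refl (tripO ℂ h ⟨e1, 0⟩) (refl (tripO ℂ h ⟨e0, 0⟩) y)) := by
  have key : ∀ e : Qt (up ℂ a) (up ℂ b'),
      Jq (sc hk) al r0 r1 (tripO ℂ h ⟨e, 0⟩) = s • tripO ℂ h ⟨e, 0⟩ →
      mq a b' al r0 * cjq e * mq a b' al (r0 * r1) = s • e := by
    intro e h1
    rw [← tripO_Jq, ← map_smul] at h1
    exact congrArg Oct.fst ((tripO ℂ h).injective h1)
  have hn : ∀ e : Qt (up ℂ a) (up ℂ b'), Oct.norm (tripO ℂ h ⟨e, 0⟩) = nrd e := by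
    intro e
    rw [hom_norm (tripO_mul h)]
    change nrd e - ((up ℂ c' : ℂˣ) : ℂ) * nrd (0 : Qt (up ℂ a) (up ℂ b')) = nrd e
    simp [nrd]
  rw [hn, hn] at hN
  rw [hn] at hN0
  obtain ⟨g1, g2, g3, g4⟩ := blockF hal hc (hk b') hr c0 c2 hs (key e0 he) (key e1 he') rfl hN hN0
  refine hP.px h g3 nrd_one' g4 g1 RQ_one g2 _ (fun y => ?_)
  rw [refl_trip, refl_trip, refl2_fst rfl hN hN0, star_one, mul_one]

theorem blk_snd {b' c' : kˣ} {j l : Oct a b c} (h : Trip a b' c' gi j l)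
    {e0 e1 : Qt (up ℂ a) (up ℂ b')}
    (he : Jq (sc hk) al r0 r1 (tripO ℂ h ⟨0, e0⟩) = s • tripO ℂ h ⟨0, e0⟩)
    (he' : Jq (sc hk) al r0 r1 (tripO ℂ h ⟨0, e1⟩) = s • tripO ℂ h ⟨0, e1⟩)
    (hN : Oct.norm (tripO ℂ h ⟨0, e1⟩) = Oct.norm (tripO ℂ h ⟨0, e0⟩))
    (hN0 : Oct.norm (tripO ℂ h ⟨0, e0⟩) ≠ 0) :
    P (fun y => refl (tripO ℂ h ⟨0, e1⟩) (refl (tripO ℂ h ⟨0, e0⟩) y)) := by
  have key : ∀ e : Qt (up ℂ a) (up ℂ b'),
      Jq (sc hk) al r0 r1 (tripO ℂ h ⟨0, e⟩) = s • tripO ℂ h ⟨0, e⟩ →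
      cjq e * (mq a b' al r0 * star (mq a b' al (r0 * r1))) = s • e := by
    intro e h1
    rw [← tripO_Jq, ← map_smul] at h1
    exact congrArg Oct.snd ((tripO ℂ h).injective h1)
  have hn : ∀ e : Qt (up ℂ a) (up ℂ b'), Oct.norm (tripO ℂ h ⟨0, e⟩) =
      -((up ℂ c' : ℂˣ) : ℂ) * nrd e := by
    intro e
    rw [hom_norm (tripO_mul h)]
    change nrd (0 : Qt (up ℂ a) (up ℂ b')) - ((up ℂ c' : ℂˣ) : ℂ) * nrd e = _
    simp [nrd]
  have hc0 : -((up ℂ c' : ℂˣ) : ℂ) ≠ 0 := neg_ne_zero.2 (up ℂ c').ne_zero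
  rw [hn, hn] at hN
  rw [hn] at hN0
  have hN' : nrd e1 = nrd e0 := mul_left_cancel₀ hc0 hN
  have hN1 : nrd e0 ≠ 0 := right_ne_zero_of_mul hN0
  have h0 : r0 ≠ 0 := by
    rintro rfl
    simp at hr
  have h1 : r1 ≠ 0 := by
    rintro rfl
    simp at hr
  obtain ⟨g1, g2, g3, g4⟩ := blockS hal hc (hk b') h0 h1 c1 hs (key e0 he) (key e1 he') rfl hN' hN1
  let f2 : OctL ℂ a b c → OctL ℂ a b c := fun z =>
    tripO ℂ h ⟨((tripO ℂ h).symm z).fst,
      ((tripO ℂ h).symm z).snd * star ((nrd e0)⁻¹ • (star e1 * e0))⟩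
  let f0 : OctL ℂ a b c → OctL ℂ a b c := fun z =>
    tripO ℂ h ⟨((tripO ℂ h).symm z).fst, (nrd e0)⁻¹ • (e1 * star e0) * ((tripO ℂ h).symm z).snd⟩
  have p2 : P f2 := by
    refine hP.px h nrd_one' g4 nrd_one' RQ_one g2 RQ_one _ (fun y => ?_)
    change tripO ℂ h ⟨((tripO ℂ h).symm (tripO ℂ h y)).fst,
      ((tripO ℂ h).symm (tripO ℂ h y)).snd * star ((nrd e0)⁻¹ • (star e1 * e0))⟩ = _
    rw [LinearEquiv.symm_apply_apply, star_one, mul_one, one_mul]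
  have p0 : P f0 := by
    refine hP.p0 h g3 g1 _ (fun y => ?_)
    change tripO ℂ h ⟨((tripO ℂ h).symm (tripO ℂ h y)).fst,
      (nrd e0)⁻¹ • (e1 * star e0) * ((tripO ℂ h).symm (tripO ℂ h y)).snd⟩ = _
    rw [LinearEquiv.symm_apply_apply]
  have e2 : (fun y => refl (tripO ℂ h ⟨0, e1⟩) (refl (tripO ℂ h ⟨0, e0⟩) y)) =
      fun y => f0 (f2 y) := by
    funext z
    obtain ⟨y, rfl⟩ := (tripO ℂ h).surjective z
    rw [refl_trip, refl_trip, refl2_snd rfl hN' hN1]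
    change _ = tripO ℂ h ⟨((tripO ℂ h).symm (tripO ℂ h ⟨((tripO ℂ h).symm (tripO ℂ h y)).fst,
      ((tripO ℂ h).symm (tripO ℂ h y)).snd * star ((nrd e0)⁻¹ • (star e1 * e0))⟩)).fst,
      (nrd e0)⁻¹ • (e1 * star e0) * ((tripO ℂ h).symm (tripO ℂ h
        ⟨((tripO ℂ h).symm (tripO ℂ h y)).fst, ((tripO ℂ h).symm (tripO ℂ h y)).snd *
          star ((nrd e0)⁻¹ • (star e1 * e0))⟩)).snd⟩
    rw [LinearEquiv.symm_apply_apply, LinearEquiv.symm_apply_apply, mul_assoc]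
  rw [e2]
  exact hP.mul _ _ p0 p2

theorem blk_core {e e' : OctL ℂ a b c} (he : Jq (sc hk) al r0 r1 e = s • e)
    (he' : Jq (sc hk) al r0 r1 e' = s • e') (hB : Blk e e')
    (hN : Oct.norm e' = Oct.norm e) (hN0 : Oct.norm e ≠ 0) :
    P (fun y => refl e' (refl e y)) := by
  have hcz : ((up ℂ c : ℂˣ) : ℂ) ≠ 0 := (up ℂ c).ne_zero
  rcases hB with ⟨h1, h2⟩ | ⟨h1, h2⟩ | ⟨⟨h1, h2, h3, h4⟩, h5, h6, h7, h8⟩
  · have k1 : e = tripO ℂ (trip_std (a := a) (b := b) (c := c)) ⟨e.fst, 0⟩ := by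
      rw [tripO_std]
      exact Oct.ext rfl h1
    have k2 : e' = tripO ℂ (trip_std (a := a) (b := b) (c := c)) ⟨e'.fst, 0⟩ := by
      rw [tripO_std]
      exact Oct.ext rfl h2
    rw [k1] at he hN hN0 ⊢
    rw [k2] at he' hN ⊢
    exact blk_fst hk hal hc hr c0 c1 c2 hs hP trip_std he he' hN hN0
  · have k1 : e = tripO ℂ (trip_std (a := a) (b := b) (c := c)) ⟨0, e.snd⟩ := by
      rw [tripO_std]
      exact Oct.ext h1 rfl
    have k2 : e' = tripO ℂ (trip_std (a := a) (b := b) (c := c)) ⟨0, e'.snd⟩ := by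
      rw [tripO_std]
      exact Oct.ext h2 rfl
    rw [k1] at he hN hN0 ⊢
    rw [k2] at he' hN ⊢
    exact blk_snd hk hal hc hr c0 c1 c2 hs hP trip_std he he' hN hN0
  · have key : ∀ x : OctL ℂ a b c, x.fst.re = 0 → x.fst.imI = 0 → x.snd.imJ = 0 →
        x.snd.imK = 0 → x = tripO ℂ (D4X.H862.trip_jl a b c)
          ⟨0, ⟨x.snd.re, x.snd.imI, x.fst.imJ / ((up ℂ c : ℂˣ) : ℂ),
            -x.fst.imK / ((up ℂ c : ℂˣ) : ℂ)⟩⟩ := by
      intro x e1 e2 e3 e4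
      have hcz' : algebraMap k ℂ (c : k) ≠ 0 := hcz
      rw [tripO_apply]
      apply ext8 <;>
        simp [emb, qemb, oup, gi, gj, gl, e1, e2, e3, e4] <;> rw [Algebra.smul_def] <;>
        field_simp
    rw [key e h1 h2 h3 h4] at he hN hN0 ⊢
    rw [key e' h5 h6 h7 h8] at he' hN ⊢
    exact blk_snd hk hal hc hr c0 c1 c2 hs hP _ he he' hN hN0

end abs

section fin

variable {k E : Type} [Field k] [Field E] [Algebra k E] {a b c : kˣ}

theorem co8_sum {ι : Type} (s : Finset ι) (f : ι → OctL E a b c) (i : Fin 8) :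
    co8 (∑ j ∈ s, f j) i = ∑ j ∈ s, co8 (f j) i := by
  classical
  induction s using Finset.induction_on with
  | empty =>
    rw [Finset.sum_empty, Finset.sum_empty]
    fin_cases i <;> rfl
  | insert j s hj ih => rw [Finset.sum_insert hj, Finset.sum_insert hj, co8_add, Pi.add_apply, ih]

theorem mat_mul (S : Set (E →+* ℂ)) (g h : OctL E a b c ≃ₗ[E] OctL E a b c) :
    mat S (g * h : OctL E a b c ≃ₗ[E] OctL E a b c) = mat S g * mat S h := by
  funext W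
  ext i j
  change W.1 (co8 (g (h (of8 (Pi.single j 1)))) i) =
    ∑ l, W.1 (co8 (g (of8 (Pi.single l 1))) i) * W.1 (co8 (h (of8 (Pi.single j 1))) l)
  obtain ⟨x, hx⟩ : ∃ x, x = h (of8 (Pi.single j 1)) := ⟨_, rfl⟩
  rw [← hx]
  have h1 : co8 (g x) i = ∑ l, co8 x l * co8 (g (of8 (Pi.single l 1))) i := by
    conv_lhs => rw [sum_e x, map_sum, co8_sum]
    refine Finset.sum_congr rfl fun l _ => ?_
    rw [map_smul, co8_smul, Pi.smul_apply, smul_eq_mul]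
  rw [h1, map_sum]
  refine Finset.sum_congr rfl fun l _ => ?_
  rw [map_mul, mul_comm]

theorem mul_mem_cl {S : Set (E →+* ℂ)} {G : Subgroup (OctL E a b c ≃ₗ[E] OctL E a b c)}
    {X Y : S → Matrix (Fin 8) (Fin 8) ℂ} (hX : X ∈ cl S G) (hY : Y ∈ cl S G) :
    X * Y ∈ cl S G := by
  refine map_mem_closure₂ continuous_mul hX hY ?_
  rintro _ ⟨z, hz, rfl⟩ _ ⟨z', hz', rfl⟩
  exact ⟨z * z', G.mul_mem hz hz', (mat_mul S z z').symm⟩

end fin

section final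

variable {k L E : Type} [Field k] [Field L] [Field E] [Algebra k L] [Algebra k E] [Algebra L E]
  [IsScalarTower k L E] [NeZero (2 : E)] {ρ σ : E ≃ₐ[k] E} {ρL : L ≃ₐ[k] L} {α : E}
  {a b c : kˣ} {q : Lˣ} (H : Hy ρ σ ρL α a b c q)

include H

/-- The block moves are products of two reflections (the limits are hypotheses). -/
theorem blk_mem_of [Algebra k ℂ] (W : E →ₐ[k] ℂ) (hW : (W : E →+* ℂ) ∈ Bd ρ σ q)
    (hzx : ∀ (W' W'' : E →ₐ[k] ℂ), (W' : E →+* ℂ) ∈ Bd ρ σ q → (W'' : E →+* ℂ) ∈ Bd ρ σ q →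
      W' = cmp W ρ → W'' = cmp W' ρ → ∀ {b' c' : kˣ} {j l : Oct a b c}
      (h : Trip a b' c' gi j l) {X1 X2 X3 : Qt (up ℂ a) (up ℂ b')}, nrd X1 = 1 → nrd X2 = 1 →
      nrd X3 = 1 → RQ a b' (W α) (W (algebraMap L E q)) X1 →
      RQ a b' (W α) (W' (algebraMap L E q)) X2 → RQ a b' (W α) (W'' (algebraMap L E q)) X3 →
      ∃ X ∈ cl (Bd ρ σ q) (Rs ρ σ α a b c q),
        (∀ y : OctL ℂ a b' c', act (X ⟨W, hW⟩) (tripO ℂ h y) =
          tripO ℂ h ⟨X1 * y.fst * star X3, y.snd * star X2⟩) ∧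
        ∀ V : Bd ρ σ q, V.1.comp (algebraMap k E) ≠ algebraMap k ℂ → X V = 1)
    (hz0 : ∀ {b' c' : kˣ} {j l : Oct a b c} (h : Trip a b' c' gi j l)
      {X0 : Qt (up ℂ a) (up ℂ b')}, nrd X0 = 1 → cjq X0 = X0 →
      ∃ X ∈ cl (Bd ρ σ q) (Rs ρ σ α a b c q),
        (∀ y : OctL ℂ a b' c', act (X ⟨W, hW⟩) (tripO ℂ h y) =
          tripO ℂ h ⟨y.fst, X0 * y.snd⟩) ∧
        ∀ V : Bd ρ σ q, V.1.comp (algebraMap k E) ≠ algebraMap k ℂ → X V = 1)
    (hq' : 0 < (W (ρ (algebraMap L E q))).re)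
    {e e' : OctL ℂ a b c} (he : e ∈ VR W ρ α q) (he' : e' ∈ VR W ρ α q) (hB : Blk e e')
    (hN : Oct.norm e' = Oct.norm e) (h0 : Oct.norm e ≠ 0) :
    ∃ X ∈ cl (Bd ρ σ q) (Rs ρ σ α a b c q),
      (∀ y : OctL ℂ a b c, act (X ⟨W, hW⟩) y = refl e' (refl e y)) ∧
      ∀ V : Bd ρ σ q, V.1.comp (algebraMap k E) ≠ algebraMap k ℂ → X V = 1 := by
  have hσ : ∀ x, W (σ x) = conj (W x) := hW.1
  have hk : ∀ t : k, conj (algebraMap k ℂ t) = algebraMap k ℂ t := fun t => by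
    rw [← W.commutes, ← hσ, σ.commutes]
  have hal : W α * W α = ((up ℂ a : ℂˣ) : ℂ) := by
    rw [← map_mul, H.α2, W.commutes]
    rfl
  have hc : conj (W α) = -W α := by rw [← hσ, H.σα, map_neg]
  have c0 : conj (W (algebraMap L E q)) = W (algebraMap L E q) := by rw [← hσ, H.σL]
  have c1 : conj (W (ρ (algebraMap L E q))) = W (ρ (algebraMap L E q)) := by
    rw [H.ρL', ← hσ, H.σL]
  have c2 : conj (W (ρ (ρ (algebraMap L E q)))) = W (ρ (ρ (algebraMap L E q))) := by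
    rw [H.ρL', H.ρL', ← hσ, H.σL]
  have hr : W (algebraMap L E q) * W (ρ (algebraMap L E q)) *
      W (ρ (ρ (algebraMap L E q))) = 1 := by
    rw [H.ρL', H.ρL', ← map_mul, ← map_mul, ← map_mul, ← map_mul, H.hq, map_one, map_one]
  have hs : ((Real.sqrt (W (algebraMap L E q * (algebraMap L E q *
      ρ (algebraMap L E q)))).re : ℝ) : ℂ) ^ 2 =
        W (algebraMap L E q) ^ 2 * W (ρ (algebraMap L E q)) := by
    have e0 : W (algebraMap L E q) = ((W (algebraMap L E q)).re : ℂ) :=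
      (Complex.conj_eq_iff_re.1 c0).symm
    have e1 : W (ρ (algebraMap L E q)) = ((W (ρ (algebraMap L E q))).re : ℂ) :=
      (Complex.conj_eq_iff_re.1 c1).symm
    obtain ⟨x, hx⟩ : ∃ x, x = (W (algebraMap L E q)).re := ⟨_, rfl⟩
    obtain ⟨y, hy⟩ : ∃ y, y = (W (ρ (algebraMap L E q))).re := ⟨_, rfl⟩
    rw [← hx] at e0
    rw [← hy] at e1 hq'
    rw [map_mul, map_mul, e0, e1, ← Complex.ofReal_mul, ← Complex.ofReal_mul, Complex.ofReal_re,
      ← Complex.ofReal_pow, Real.sq_sqrt (by nlinarith [mul_nonneg (sq_nonneg x) hq'.le])]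
    push_cast
    ring
  have hP : Mv (a := a) (b := b) (c := c) (W α) (W (algebraMap L E q))
      (W (ρ (algebraMap L E q))) (W (ρ (ρ (algebraMap L E q))))
      (fun f => ∃ X ∈ cl (Bd ρ σ q) (Rs ρ σ α a b c q),
        (∀ y : OctL ℂ a b c, act (X ⟨W, hW⟩) y = f y) ∧
        ∀ V : Bd ρ σ q, V.1.comp (algebraMap k E) ≠ algebraMap k ℂ → X V = 1) := by
    refine ⟨?_, ?_, ?_⟩
    · intro b' c' j l h X1 X2 X3 n1 n2 n3 q1 q2 q3 f hf
      obtain ⟨X, hX, hX1, hX4⟩ := hzx (cmp W ρ) (cmp (cmp W ρ) ρ) (Bd_rho H _ hW)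
        (Bd_rho H _ (Bd_rho H _ hW)) rfl rfl h n1 n2 n3 q1 q2 q3
      refine ⟨X, hX, fun y => ?_, hX4⟩
      obtain ⟨y, rfl⟩ := (tripO ℂ h).surjective y
      rw [hX1, hf]
    · intro b' c' j l h X0 n0 q0 f hf
      obtain ⟨X, hX, hX1, hX4⟩ := hz0 h n0 q0
      refine ⟨X, hX, fun y => ?_, hX4⟩
      obtain ⟨y, rfl⟩ := (tripO ℂ h).surjective y
      rw [hX1, hf]
    · rintro f g ⟨X, hX, hX1, hX2⟩ ⟨Y, hY, hY1, hY2⟩
      refine ⟨X * Y, mul_mem_cl hX hY, fun y => ?_, fun V hV => ?_⟩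
      · rw [Pi.mul_apply, act_mul, hY1, hX1]
      · rw [Pi.mul_apply, hX2 V hV, hY2 V hV, mul_one]
  exact blk_core hk hal hc hr c0 c1 c2 hs hP he he' hB hN h0

end final

end H553

end Vale.Agent.P011.D4Z
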