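import Vale.Agent.P011.D4Z.H553.Blk
import Vale.Agent.P011.D4Z.H319.Lim0H
import Vale.Agent.P011.D4Z.H408.LimX

/-!
Block D4Z: the moves of the four dimensional blocks.
-/

open Topology NumberField

set_option linter.unusedVariables false

namespace Vale.Agent.P011.D4Z

open Vale.Agent.P011.MPQ Vale.Agent.P011.D4 Vale.Agent.P011.D4.Oct Vale.Agent.P011.D4X
open Vale.Agent.P011.E6
open scoped ComplexConjugate

variable {k L E : Type} [Field k] [NumberField k] [Field L] [NumberField L] [Field E]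
  [NumberField E] [Algebra k L] [Algebra k E] [Algebra L E]
  [IsScalarTower k L E] [NeZero (2 : E)] {ρ σ : E ≃ₐ[k] E} {ρL : L ≃ₐ[k] L} {α : E}
  {a b c : kˣ} {q : Lˣ} (H : Hy ρ σ ρL α a b c q)

include H

/-- The block moves are products of two reflections. -/
theorem blk_mem (hX : ∀ w : L →+* ℝ, w (algebraMap k L a) < 0 →
      w (algebraMap k L b) < 0 ∧ w (algebraMap k L c) < 0)
    [Algebra k ℂ] (W : E →ₐ[k] ℂ) (hW : (W : E →+* ℂ) ∈ Bd ρ σ q)
    (hq : (W (algebraMap L E q)).re < 0) (hq' : 0 < (W (ρ (algebraMap L E q))).re)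
    {e e' : OctL ℂ a b c} (he : e ∈ VR W ρ α q) (he' : e' ∈ VR W ρ α q) (hB : Blk e e')
    (hN : Oct.norm e' = Oct.norm e) (h0 : Oct.norm e ≠ 0) :
    ∃ X ∈ cl (Bd ρ σ q) (Rs ρ σ α a b c q),
      (∀ y : OctL ℂ a b c, act (X ⟨W, hW⟩) y = refl e' (refl e y)) ∧
      ∀ V : Bd ρ σ q, V.1.comp (algebraMap k E) ≠ algebraMap k ℂ → X V = 1 := by
  refine H553.blk_mem_of H W hW ?_ ?_ hq' he he' hB hN h0
  · intro W' W'' hW' hW'' h' h'' b' c' j l h X1 X2 X3 n1 n2 n3 q1 q2 q3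
    obtain ⟨X, hX1, hX2, -, -, hX3⟩ := zlim_x H W W' W'' hW hW' hW'' h' h'' h n1 n2 n3 q1 q2 q3
    exact ⟨X, hX1, hX2, hX3⟩
  · intro b' c' j l h X0 n0 q0
    exact zlim_0 H W hW h n0 q0

end Vale.Agent.P011.D4Z
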