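import Vale.Agent.P011.D4X.H657.Mk4
import Vale.Agent.P011.D4X.H637.Conj

/-!
Block D4Z: the real forms of the quaternion algebra at a complex place, and the products of two
reflections in the fixed space of the conjugation.
-/

open Vale.Agent.P011.MPQ Vale.Agent.P011.D4 Vale.Agent.P011.D4X
open Vale.Agent.P011.D4X.H637 (qn)

namespace Vale.Agent.P011.D4Z

noncomputable section

section defs

variable {A B : ℂˣ}

/-- The complex conjugation of the coordinates. -/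
def cq (x : Qt A B) : Qt A B :=
  ⟨(starRingEnd ℂ) x.re, (starRingEnd ℂ) x.imI, (starRingEnd ℂ) x.imJ, (starRingEnd ℂ) x.imK⟩

/-- The element `t e₊ + e₋`. -/
def mC (A B : ℂˣ) (al t : ℂ) : Qt A B := mk4 A B al t 1 0 0

/-- The embedding of the real form with the parameter `r`. -/
def psiC (A B : ℂˣ) (al : ℂ) (r : ℝ) {Ar Br : ℝ} (x : QuaternionAlgebra ℝ Ar 0 (r * Br)) :
    Qt A B :=
  mk4 A B al ((x.re : ℂ) + (x.imI : ℂ) * al) ((x.re : ℂ) - (x.imI : ℂ) * al)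
    ((r : ℂ) * ((x.imJ : ℂ) + (x.imK : ℂ) * al)) ((x.imJ : ℂ) - (x.imK : ℂ) * al)

theorem cq_mk4 {al : ℂ} (hc : (starRingEnd ℂ) al = -al) (u u' v v' : ℂ) :
    cq (mk4 A B al u u' v v') = mk4 A B al ((starRingEnd ℂ) u') ((starRingEnd ℂ) u)
      ((starRingEnd ℂ) v') ((starRingEnd ℂ) v) := by
  ext
  · simp only [cq, mk4, map_div₀, map_add, map_ofNat]
    ring
  · simp only [cq, mk4, map_div₀, map_sub, map_mul, map_ofNat, hc]
    rw [mul_neg, div_neg, ← neg_div, neg_sub]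
  · simp only [cq, mk4, map_div₀, map_add, map_ofNat]
    ring
  · simp only [cq, mk4, map_div₀, map_sub, map_mul, map_ofNat, hc]
    rw [mul_neg, div_neg, ← neg_div, neg_sub]

end defs

section real

variable {A B : ℂˣ} {al : ℂ} {Ar Br : ℝ}

/-- The coordinates of `α`. -/
theorem al_im (hal : al * al = (A : ℂ)) (hc : (starRingEnd ℂ) al = -al) :
    al = (al.im : ℂ) * Complex.I ∧ al.im ≠ 0 := by
  have h1 : al.re = 0 := by
    have h := congrArg Complex.re hc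
    rw [Complex.conj_re, Complex.neg_re] at h
    linarith
  have h2 : al = (al.im : ℂ) * Complex.I := by
    apply Complex.ext
    · simp [h1]
    · simp
  refine ⟨h2, fun h0 => ?_⟩
  rw [h0, Complex.ofReal_zero, zero_mul] at h2
  exact A.ne_zero (by rw [← hal, h2, mul_zero])

/-- Every complex number is `t + t' α` with real `t`, `t'`. -/
theorem exists_real (hal : al * al = (A : ℂ)) (hc : (starRingEnd ℂ) al = -al) (z : ℂ) :
    ∃ t t' : ℝ, z = (t : ℂ) + (t' : ℂ) * al ∧ (starRingEnd ℂ) z = (t : ℂ) - (t' : ℂ) * al := by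
  obtain ⟨h1, h2⟩ := al_im hal hc
  have e : z = (z.re : ℂ) + ((z.im / al.im : ℝ) : ℂ) * al := by
    conv_rhs => rw [h1]
    apply Complex.ext
    · simp
    · simp only [Complex.add_im, Complex.ofReal_im, zero_add, ← mul_assoc, ← Complex.ofReal_mul,
        Complex.mul_im, Complex.ofReal_re, Complex.I_im, mul_one, Complex.I_re, mul_zero, add_zero]
      field_simp
  refine ⟨z.re, z.im / al.im, e, ?_⟩
  conv_lhs => rw [e]
  rw [map_add, map_mul, hc, Complex.conj_ofReal, Complex.conj_ofReal]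
  ring

/-- The reduced norm of the image of the real form. -/
theorem nrd_psiC (hal : al * al = (A : ℂ)) (hA : (A : ℂ) = (Ar : ℂ)) (hB : (B : ℂ) = (Br : ℂ))
    {r : ℝ} (x : QuaternionAlgebra ℝ Ar 0 (r * Br)) :
    nrd (psiC A B al r x) = ((qn x : ℝ) : ℂ) := by
  rw [psiC, nrd_mk4 hal, hB, qn]
  push_cast
  rw [← hA, ← hal]
  ring

/-- The real form is the set of the fixed elements. -/
theorem exists_psiC (hal : al * al = (A : ℂ)) (hc : (starRingEnd ℂ) al = -al) (Ar Br : ℝ)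
    {r : ℝ} {u u' v v' : ℂ} (h1 : u' = (starRingEnd ℂ) u) (h2 : v = (r : ℂ) * (starRingEnd ℂ) v') :
    ∃ x : QuaternionAlgebra ℝ Ar 0 (r * Br), psiC A B al r x = mk4 A B al u u' v v' := by
  obtain ⟨t, t', e1, e2⟩ := exists_real hal hc u
  obtain ⟨p, p', e3, e4⟩ := exists_real hal hc v'
  refine ⟨⟨t, t', p, -p'⟩, ?_⟩
  rw [psiC, h1, h2, e4, e2]
  conv_rhs => rw [e1, e3]
  simp only [Complex.ofReal_neg]
  congr 1
  · ring
  · ring

/-- The coordinates of an element of the fixed space of the conjugation. -/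
theorem jr_coord (hal : al * al = (A : ℂ)) (hc : (starRingEnd ℂ) al = -al) {r0 r1 s : ℝ}
    (h0 : r0 ≠ 0) (h1 : r1 ≠ 0) (hs : s ^ 2 = r0 ^ 2 * r1) {u u' v v' : ℂ}
    (h : mC A B al (r0 : ℂ) * cq (mk4 A B al u u' v v') * mC A B al ((r0 : ℂ) * (r1 : ℂ)) =
      (s : ℂ) • mk4 A B al u u' v v') :
    (starRingEnd ℂ) u = (s : ℂ) * u' ∧ (starRingEnd ℂ) u' = u / (s : ℂ) ∧
      (starRingEnd ℂ) v = (s : ℂ) * v' / ((r0 : ℂ) * (r1 : ℂ)) ∧
      (starRingEnd ℂ) v' = (s : ℂ) * v / (r0 : ℂ) := by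
  have hs0 : s ≠ 0 := by
    rintro rfl
    rw [zero_pow two_ne_zero] at hs
    exact mul_ne_zero (pow_ne_zero 2 h0) h1 hs.symm
  have hs' : (s : ℂ) ^ 2 = (r0 : ℂ) ^ 2 * (r1 : ℂ) := by exact_mod_cast hs
  have hsC : (s : ℂ) ≠ 0 := Complex.ofReal_ne_zero.2 hs0
  have h0C : (r0 : ℂ) ≠ 0 := Complex.ofReal_ne_zero.2 h0
  have h1C : (r1 : ℂ) ≠ 0 := Complex.ofReal_ne_zero.2 h1
  rw [cq_mk4 hc, mC, mC, mk4_mul hal, mk4_mul hal, smul_mk4] at h
  obtain ⟨e1, e2, e3, e4⟩ := mk4_inj hal h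
  simp only [zero_mul, mul_zero, add_zero, zero_add, one_mul, mul_one] at e1 e2 e3 e4
  refine ⟨e2, ?_, ?_, ?_⟩
  · rw [eq_div_iff hsC]
    apply mul_left_cancel₀ hsC
    linear_combination e1 + (starRingEnd ℂ) u' * hs'
  · rw [eq_div_iff (mul_ne_zero h0C h1C)]
    exact e4
  · rw [eq_div_iff h0C]
    linear_combination e3

/-- **The first block.** The products of two elements of the fixed space lie in the real
forms. -/
theorem exists_block1 (hal : al * al = (A : ℂ)) (hc : (starRingEnd ℂ) al = -al)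
    (hA : (A : ℂ) = (Ar : ℂ)) (hB : (B : ℂ) = (Br : ℂ)) {r0 r1 r2 s : ℝ} (hr : r0 * r1 * r2 = 1)
    (hs : s ^ 2 = r0 ^ 2 * r1) {e e' : Qt A B}
    (he : mC A B al (r0 : ℂ) * cq e * mC A B al ((r0 : ℂ) * (r1 : ℂ)) = (s : ℂ) • e)
    (he' : mC A B al (r0 : ℂ) * cq e' * mC A B al ((r0 : ℂ) * (r1 : ℂ)) = (s : ℂ) • e')
    {N : ℂ} (hN : nrd e = N) (hN' : nrd e' = N) (hN0 : N ≠ 0) :
    ∃ (x1 : QuaternionAlgebra ℝ Ar 0 (r0 * Br)) (x3 : QuaternionAlgebra ℝ Ar 0 (r2 * Br)),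
      qn x1 = 1 ∧ qn x3 = 1 ∧ psiC A B al r0 x1 = N⁻¹ • (e' * star e) ∧
        psiC A B al r2 x3 = N⁻¹ • (star e' * e) := by
  have h0 : r0 ≠ 0 := by
    rintro rfl
    simp at hr
  have h1 : r1 ≠ 0 := by
    rintro rfl
    simp at hr
  have hs0 : s ≠ 0 := by
    rintro rfl
    rw [zero_pow two_ne_zero] at hs
    exact mul_ne_zero (pow_ne_zero 2 h0) h1 hs.symm
  have hs' : (s : ℂ) ^ 2 = (r0 : ℂ) ^ 2 * (r1 : ℂ) := by exact_mod_cast hs
  have hr' : (r0 : ℂ) * (r1 : ℂ) * (r2 : ℂ) = 1 := by exact_mod_cast hr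
  have hsC : (s : ℂ) ≠ 0 := Complex.ofReal_ne_zero.2 hs0
  have h0C : (r0 : ℂ) ≠ 0 := Complex.ofReal_ne_zero.2 h0
  have h1C : (r1 : ℂ) ≠ 0 := Complex.ofReal_ne_zero.2 h1
  have hr2 : (r2 : ℂ) = ((r0 : ℂ) * (r1 : ℂ))⁻¹ := eq_inv_of_mul_eq_one_right hr'
  have hBc : (starRingEnd ℂ) (B : ℂ) = (B : ℂ) := by rw [hB, Complex.conj_ofReal]
  have norm_one : ∀ {r : ℝ} (x : QuaternionAlgebra ℝ Ar 0 (r * Br)) (X : Qt A B),
      nrd X = N * N → psiC A B al r x = N⁻¹ • X → qn x = 1 := by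
    intro r x X hX hx
    have h2 := nrd_psiC hal hA hB x
    rw [hx, nrd_smul_q, hX] at h2
    have h3 : N⁻¹ ^ 2 * (N * N) = 1 := by
      field_simp
    rw [h3] at h2
    exact_mod_cast h2.symm
  obtain ⟨u, u', v, v', hu⟩ : ∃ u u' v v', e = mk4 A B al u u' v v' := ⟨_, _, _, _, mk4_surj hal e⟩
  obtain ⟨w, w', z, z', hw⟩ : ∃ u u' v v', e' = mk4 A B al u u' v v' :=
    ⟨_, _, _, _, mk4_surj hal e'⟩
  have hn1 : nrd (e' * star e) = N * N := by rw [nrd_mul_q, nrd_star_q, hN, hN']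
  have hn2 : nrd (star e' * e) = N * N := by rw [nrd_mul_q, nrd_star_q, hN, hN']
  rw [hu] at he
  rw [hw] at he'
  obtain ⟨a1, a2, a3, a4⟩ := jr_coord hal hc h0 h1 hs he
  obtain ⟨b1, b2, b3, b4⟩ := jr_coord hal hc h0 h1 hs he'
  -- the norm is real
  have hNc : (starRingEnd ℂ) N = N := by
    rw [← hN, hu, nrd_mk4 hal]
    simp only [map_sub, map_mul, a1, a2, a3, a4, hBc]
    field_simp
    linear_combination (-(B : ℂ) * v * v') * hs'
  obtain ⟨x1, hx1⟩ := exists_psiC hal hc Ar Br (r := r0)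
    (u := N⁻¹ * (w * u' + (B : ℂ) * (z * -v'))) (u' := N⁻¹ * (w' * u + (B : ℂ) * (z' * -v)))
    (v := N⁻¹ * (w * -v + z * u)) (v' := N⁻¹ * (w' * -v' + z' * u')) (by
      simp only [map_add, map_mul, map_neg, map_inv₀, hNc, a2, a4, b1, b3, hBc]
      field_simp
      linear_combination ((B : ℂ) * v * z') * hs') (by
      simp only [map_add, map_mul, map_neg, map_inv₀, hNc, a2, a4, b2, b4]
      field_simp)
  obtain ⟨x3, hx3⟩ := exists_psiC hal hc Ar Br (r := r2)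
    (u := N⁻¹ * (w' * u + (B : ℂ) * (-z * v'))) (u' := N⁻¹ * (w * u' + (B : ℂ) * (-z' * v)))
    (v := N⁻¹ * (w' * v + -z * u')) (v' := N⁻¹ * (w * v' + -z' * u)) (by
      simp only [map_add, map_mul, map_neg, map_inv₀, hNc, a1, a4, b2, b3, hBc]
      field_simp
      linear_combination ((B : ℂ) * v * z') * hs') (by
      simp only [map_add, map_mul, map_neg, map_inv₀, hNc, a1, a4, b1, b4, hr2]
      field_simp
      linear_combination (z * u' - w' * v) * hs')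
  have g1 : psiC A B al r0 x1 = N⁻¹ • (e' * star e) := by
    rw [hx1, hu, hw, star_mk4, mk4_mul hal, smul_mk4]
  have g3 : psiC A B al r2 x3 = N⁻¹ • (star e' * e) := by
    rw [hx3, hu, hw, star_mk4, mk4_mul hal, smul_mk4]
  exact ⟨x1, x3, norm_one x1 _ hn1 g1, norm_one x3 _ hn2 g3, g1, g3⟩

end real

end

end Vale.Agent.P011.D4Z
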